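import Crest.Agent.N250.T.Stm

/-!
# Row 250 (helper16): the static limit (statements)
-/

set_option autoImplicit false
open MeasureTheory Set Filter Topology
open scoped ContDiff InnerProductSpace
open Crest.GeometryTopology.MCF

noncomputable section

namespace Crest.Agent.N250

/-- `∫∫ H² → 0` on bounded sets of negative times -/
def H2Van {α : Type} (l : Filter α) (Fk : α → Mv) : Prop :=
  ∀ R t₁ t₂ : ℝ, t₂ < 0 → Tendsto (fun k => (Fk k).stI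
    ((Metric.ball (0 : E) R ×ˢ (univ : Set ℝ)).indicator fun p => (Fk k).H p ^ 2) t₁ t₂) l (𝓝 0)

/-- complete embedded static minimal surface (possibly empty) with area ratios at most `Λ` -/
structure MinS (S : Mv) (Λ : ℝ) : Prop where
  reg : S.Reg
  st : S.Static
  closed : IsClosed S.M
  min : ∀ p ∈ S.M, S.H p = 0
  ar : S.AR Λ

/-- flows with vanishing `∫∫ H²` and small density off a locally finite set converge smoothly,
with multiplicity one, up to the time `0`, to a static minimal surface -/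
def SLimS : Prop := ∀ Λ : ℝ, ∃ e : ℝ, 0 < e ∧ ∀ (G : ℝ) (α : Type) (l : Ultrafilter α)
  (Fk : α → Mv) (a b : α → ℝ) (Z : Set E),
  (∀ᶠ k in (l : Filter α), Fl (Fk k) (Ioo (a k) (b k)) Λ ∧ LGB (Fk k) G ∧ 1 ≤ b k) →
  Tendsto a l atBot → H2Van l Fk → (∀ R, (Z ∩ Metric.ball 0 R).Finite) →
  (∀ p ∉ Z, ∃ r t₁ t₂ : ℝ, 0 < r ∧ t₂ < 0 ∧
    ∀ᶠ k in (l : Filter α), ∃ t ∈ Icc t₁ t₂, (Fk k).Fs t p (r ^ 2) ≤ 1 + e) →
  ∃ S : Mv, MinS S Λ ∧ ∫⁻ x, ENNReal.ofReal (S.A2 (x, 0)) ∂S.mu 0 ≤ ENNReal.ofReal G ∧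
    Conv l Fk S (univ ×ˢ Iio 0) ∧
    (∀ (tk : α → ℝ) (t : ℝ), t ≤ 0 → Tendsto tk l (𝓝 t) →
      Conv l (fun k => (Fk k).freeze (tk k)) S univ) ∧
    ∀ (tk : α → ℝ) (t : ℝ) (y : E) (s : ℝ), t ≤ 0 → 0 < s → Tendsto tk l (𝓝 t) →
      Tendsto (fun k => (Fk k).Fs (tk k) y s) l (𝓝 (S.Fs 0 y s))

/-- density one at infinity: a plane -/
def FlatS : Prop := ∀ (S : Mv) (Λ : ℝ) (p : E), MinS S Λ →
  (∀ ε, 0 < ε → ∃ᶠ R in atTop, S.Fs 0 p (R ^ 2) ≤ 1 + ε) →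
  ∀ q ∈ S.M, S.A2 q = 0 ∧ ∀ ρ, 0 < ρ → S.Reach q ρ

end Crest.Agent.N250

end
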