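import Crest.Agent.N250.SL.St
import Crest.Agent.N250.A.Stm
import Crest.Agent.N250.Min.Stm

/-!
# Row 250 (helper16): the static limit
-/

set_option autoImplicit false
open MeasureTheory Set Filter Topology Metric
open scoped ContDiff InnerProductSpace
open Crest.GeometryTopology.MCF

noncomputable section

namespace Crest.Agent.N250.SL

open CFl

variable {α : Type} {Fk : α → Mv} {F : Mv} {Ω : Set ST} {O Z : Set E} {Ik : α → Set ℝ} {Λ G : ℝ}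

lemma fr_A2 (hF : F.Reg) {t s : ℝ} {x : E} (hx : (x, t) ∈ F.M) :
    (F.freeze t).A2 (x, s) = F.A2 (x, t) := by
  have e : ∀ a b, (F.freeze t).A a b (x, s) = F.A a b (x, t) := fun a b =>
    SS.freeze_D hF (Tr.sm_nu hF b) (p := (x, s)) hx a
  simp only [Mv.A2, Finset.sum_apply, Pi.mul_apply, e]

namespace Lm

section
variable {l : Filter α} (h : Lm l Fk F Ω O) (hH : ∀ p ∈ F.M, p.2 ≤ 0 → F.H p = 0)
include h hH

/-- lower semicontinuity on open sets -/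
lemma lsc [l.NeBot] (hμ : ConvMuS) (hk : ∀ᶠ k in l, Fl (Fk k) (Ik k) Λ) {g : PNA → ℝ}
    (hg : Continuous g) (hp : ∀ q, 0 ≤ g q) {U : Set E} (hU : IsOpen U) {tk : α → ℝ} {t : ℝ}
    (ht : t ≤ 0) (htk : Tendsto tk l (𝓝 t)) {c : ENNReal}
    (hc : ∀ᶠ k in l, ∫⁻ x in U, ENNReal.ofReal (g (jt (Fk k) (tk k) x)) ∂(Fk k).mu (tk k) ≤ c) :
    ∫⁻ x in U, ENNReal.ofReal (g (jt F 0 x)) ∂F.mu 0 ≤ c := by
  have e : U =ᵐ[F.mu 0] (U ∩ O : Set E) := by
    filter_upwards [Hu.ae_sl h.mcf.1 0] with x hx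
    exact propext ⟨fun a => ⟨a, h.inO hx⟩, fun a => a.1⟩
  rw [setLIntegral_congr e]
  refine open_sup (hU.inter h.oO) fun K k1 k2 => ?_
  obtain ⟨χ, K', c1, k3, k4, c2, c3, c4, c5⟩ := exists_cut k1 (hU.inter h.oO) k2
  have g1 : Continuous fun q : PNA => χ q.1 * g q := by fun_prop
  have g0 : ∀ q : PNA, q.1 ∉ K' → χ q.1 * g q = 0 := fun q hq => by rw [c5 _ hq, zero_mul]
  have e1 := ENNReal.tendsto_ofReal
    (h.conv_top hH hμ k3 (k4.trans inter_subset_right) g1 g0 ht htk)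
  have i0 := h.intg k3 (k4.trans inter_subset_right) le_rfl
    (g1.comp_continuousOn (cont_jt h.mcf.1 0)) fun x hx => g0 _ hx
  refine le_trans ?_ (le_of_tendsto e1 ?_)
  · refine le_trans ?_ (ofReal_integral_eq_lintegral_ofReal i0
      (.of_forall fun x => mul_nonneg (c2 _) (hp _))).ge
    rw [← lintegral_indicator k1.measurableSet]
    refine lintegral_mono fun x => ?_
    by_cases hx : x ∈ K
    · rw [indicator_of_mem hx, Function.comp_apply, show χ (jt F 0 x).1 = 1 from c4 x hx, one_mul]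
    · rw [indicator_of_notMem hx]; exact zero_le
  · filter_upwards [hk, hc] with k f1 f2
    rw [ofReal_integral_eq_lintegral_ofReal (intg_fl f1 k3 (tk k) g1 g0)
      (.of_forall fun x => mul_nonneg (c2 _) (hp _))]
    refine le_trans ?_ f2
    rw [← lintegral_indicator hU.measurableSet]
    refine lintegral_mono fun x => ?_
    by_cases hx : x ∈ U
    · rw [indicator_of_mem hx]
      exact ENNReal.ofReal_le_ofReal (mul_le_of_le_one_left (hp _) (c3 _))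
    · rw [show χ (jt (Fk k) (tk k) x).1 = 0 from c5 x fun h => hx (k4 h).1, zero_mul,
        ENNReal.ofReal_zero]
      exact zero_le

lemma ar [l.NeBot] (hμ : ConvMuS) (hk : ∀ᶠ k in l, Fl (Fk k) (Ik k) Λ) : (F.freeze 0).AR Λ :=
  fun _ y r hr => by
    have := h.lsc hH hμ hk (g := fun _ => 1) continuous_const (fun _ => zero_le_one)
      (U := ball y r) isOpen_ball le_rfl (tk := fun _ => 0) tendsto_const_nhds
      (c := ENNReal.ofReal (Λ * r ^ 2)) (hk.mono fun k f => by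
        simpa only [ENNReal.ofReal_one, setLIntegral_one] using f.ar 0 y r hr)
    simp only [ENNReal.ofReal_one, setLIntegral_one] at this
    exact this

lemma sm [l.NeBot] (hμ : ConvMuS) (hk : ∀ᶠ k in l, Fl (Fk k) (Ik k) Λ) : Min.SM (F.freeze 0) Λ :=
  ⟨SS.freeze_reg h.mcf.1 0, ⟨fun _ _ => Iff.rfl, fun _ _ => rfl, fun _ => rfl⟩,
    fun p hp => (SS.freeze_H h.mcf.1 hp).trans (hH (p.1, 0) hp le_rfl), h.ar hH hμ hk⟩

omit hH in
lemma pr_fr : (F.freeze 0).Proper (O ×ˢ univ) := fun p hp hO =>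
  h.pr _ (map_mem_closure (f := fun q : ST => ((q.1, 0) : ST)) (by fun_prop) hp fun _ h => h)
    (h.sub ⟨hO.1, self_mem_Iic⟩)

end

/-- finite total curvature -/
lemma a2_le {l : Ultrafilter α} (h : Lm l Fk F Ω O) (hH : ∀ p ∈ F.M, p.2 ≤ 0 → F.H p = 0)
    (hμ : ConvMuS) (hk : ∀ᶠ k in (l : Filter α), Fl (Fk k) (Ik k) Λ)
    (hG : ∀ᶠ k in (l : Filter α), LGB (Fk k) G) (h2 : H2Van l Fk) :
    ∫⁻ x, ENNReal.ofReal ((F.freeze 0).A2 (x, 0)) ∂(F.freeze 0).mu 0 ≤ ENNReal.ofReal G := by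
  have e : ∫⁻ x, ENNReal.ofReal ((F.freeze 0).A2 (x, 0)) ∂(F.freeze 0).mu 0 =
      ∫⁻ x in univ, ENNReal.ofReal (F.A2 (x, 0)) ∂F.mu 0 := by
    rw [Measure.restrict_univ]
    exact lintegral_congr_ae ((Hu.ae_sl h.mcf.1 0).mono fun x hx => by
      simp only [fr_A2 h.mcf.1 hx])
  rw [e]
  refine open_sup isOpen_univ fun K k1 _ => ?_
  obtain ⟨R, hR, r1⟩ := k1.isBounded.subset_ball_lt 0 0
  refine (lintegral_mono_set r1).trans ?_
  have t0 : Tendsto (fun ε : ℝ => ENNReal.ofReal G * (1 + ENNReal.ofReal ε)) (𝓝[>] 0)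
      (𝓝 (ENNReal.ofReal G)) := by
    simpa using ENNReal.Tendsto.const_mul (a := ENNReal.ofReal G)
      ((ENNReal.tendsto_ofReal (tendsto_nhdsWithin_of_tendsto_nhds (s := Ioi (0 : ℝ))
        (tendsto_id (x := 𝓝 (0 : ℝ))))).const_add 1) (Or.inr ENNReal.ofReal_ne_top)
  refine ge_of_tendsto t0 (eventually_mem_nhdsWithin.mono fun ε hε => ?_)
  obtain ⟨tk, t, a1, a2, a3⟩ := pick h2 (2 * R) (t₁ := -2) (t₂ := -1) (by norm_num) (by norm_num) hε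
  have := h.lsc hH hμ hk (g := fun q => ∑ a, ∑ b, q.2.2 a b * q.2.2 a b) (by fun_prop)
    (fun _ => Finset.sum_nonneg fun _ _ => Finset.sum_nonneg fun _ _ => mul_self_nonneg _)
    (U := ball 0 R) isOpen_ball (by linarith [a1.2]) a2
    (c := ENNReal.ofReal G * (1 + ENNReal.ofReal ε)) (by
      filter_upwards [hG, a3] with k f1 f2
      simp only [← jt_A2]
      exact (f1 (tk k) 0 R hR).trans (by gcongr))
  simpa only [← jt_A2] using this

/-- no mass is lost at a locally finite set -/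
lemma fs_lim {l : Filter α} [l.NeBot] (h : Lm l Fk F Ω Zᶜ) (hH : ∀ p ∈ F.M, p.2 ≤ 0 → F.H p = 0)
    (hμ : ConvMuS) (hk : ∀ᶠ k in l, Fl (Fk k) (Ik k) Λ) (hZ : ∀ R, (Z ∩ ball 0 R).Finite)
    {tk : α → ℝ} {t : ℝ} (y : E) {s : ℝ} (ht : t ≤ 0) (hs : 0 < s) (htk : Tendsto tk l (𝓝 t)) :
    Tendsto (fun k => (Fk k).Fs (tk k) y s) l (𝓝 ((F.freeze 0).Fs 0 y s)) := by
  refine Metric.tendsto_nhds.2 fun ε hε => ?_
  set L := max Λ 0
  have hL : 0 ≤ L := le_max_right _ _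
  obtain ⟨R, hR, r1⟩ := exists_R (Gau.C0 * L) (by positivity : 0 < ε / 5)
  obtain ⟨D, d1⟩ := (isBounded_closedBall (x := y) (r := R * √s)).subset_ball (0 : E)
  set T := (hZ D).toFinset
  set ρ := √(ε / 5 / (T.card * (s⁻¹ * L) + 1)) with hρ
  have ρ0 : 0 < ρ := by positivity
  have ρ1 : T.card * (s⁻¹ * (L * ρ ^ 2)) ≤ ε / 5 := by
    rw [hρ, Real.sq_sqrt (by positivity)]
    have : ε / 5 / (T.card * (s⁻¹ * L) + 1) * (T.card * (s⁻¹ * L) + 1) = ε / 5 := by field_simp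
    have : 0 < ε / 5 / (T.card * (s⁻¹ * L) + 1) := by positivity
    nlinarith
  obtain ⟨χ, K', c1, k3, k4, c2, c3, c4, c5⟩ := exists_cut
    (K := closedBall y (R * √s) \ ⋃ z ∈ T, ball z ρ)
    ((isCompact_closedBall _ _).diff (isOpen_biUnion fun _ _ => isOpen_ball)) h.oO
    fun x hx hz => hx.2 (mem_biUnion ((hZ D).mem_toFinset.2 ⟨hz, d1 hx.1⟩) (mem_ball_self ρ0))
  have tl := fun (μ : Measure E) (hμ : Gau.Rat μ L) => tail_gen hL hμ (y := y) hs hR ρ0 T c1 c2 c3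
    fun x hx hz => c4 x ⟨ball_subset_closedBall hx, fun hx => by
      obtain ⟨z, z1, z2⟩ := mem_iUnion₂.1 hx
      exact hz z z1 z2⟩
  have e1 := (Metric.tendsto_nhds.1 (h.conv_top hH hμ k3 k4
    (g := fun q => χ q.1 * gau y s q.1)
    ((c1.comp continuous_fst).mul ((Gau.gau_cont y s).comp continuous_fst))
    (fun q hq => by rw [c5 _ hq, zero_mul]) ht htk)) (ε / 5) (by positivity)
  have b2 := abs_le.1 (tl _ (Gau.rat_of_AR (h.ar hH hμ hk) 0))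
  filter_upwards [e1, hk] with k e1 f1
  have b1 := abs_le.1 (tl _ (Gau.rat_of_AR f1.ar (tk k)))
  simp only [jt, Real.dist_eq] at e1 ⊢
  rw [abs_lt] at e1 ⊢
  have e : (F.freeze 0).mu 0 = F.mu 0 := rfl
  unfold Mv.Fs
  rw [e] at b2 ⊢
  constructor <;> linarith [b1.1, b1.2, b2.1, b2.2, e1.1, e1.2]

end Lm

lemma closed_of (hZ : ∀ R, (Z ∩ ball 0 R).Finite) : IsClosed Z :=
  isClosed_of_closure_subset fun x hx => by
    have h1 := isOpen_ball.closure_inter (s := Z) (t := ball (0 : E) (‖x‖ + 1))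
      ⟨hx, by rw [mem_ball_zero_iff]; linarith⟩
    rw [(hZ _).isClosed.closure_eq] at h1
    exact h1.1

/-- smooth convergence off `Z` -/
lemma stage (hC : CptS) {e c : ℝ} (he : 0 < e) (hc : 0 < c)
    (hW : ∀ (F : Mv) (a b t : ℝ) (y : E) (r : ℝ), Fl F (Ioo a b) Λ → 0 < r → a < t →
      t + r ^ 2 ≤ b → F.Fs t y (r ^ 2) ≤ 1 + e →
      ∀ p ∈ F.M ∩ PC (y, t + r ^ 2) (c * r), F.Reach p (c * r))
    {l : Ultrafilter α} {a b : α → ℝ}
    (h1 : ∀ᶠ k in (l : Filter α), Fl (Fk k) (Ioo (a k) (b k)) Λ ∧ 1 ≤ b k) (ha : Tendsto a l atBot)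
    (h2 : H2Van l Fk) (hZ : IsClosed Z)
    (hg : ∀ p ∉ Z, ∃ r t₁ t₂ : ℝ, 0 < r ∧ t₂ < 0 ∧
      ∀ᶠ k in (l : Filter α), ∃ t ∈ Icc t₁ t₂, (Fk k).Fs t p (r ^ 2) ≤ 1 + e / 2) :
    ∃ F Ω, Lm l Fk F Ω Zᶜ := by
  set Ω : Set ST := {p | p.1 ∉ Z ∧ ∃ U ∈ 𝓝 p, ∃ ρ, 0 < ρ ∧ ∀ᶠ k in (l : Filter α),
    (Fk k).IsMCF ∧ (Fk k).Proper U ∧ ∀ q ∈ (Fk k).M ∩ U, (Fk k).Reach q ρ} with hΩ
  have o : IsOpen Ω := isOpen_iff_mem_nhds.2 fun p ⟨p1, U, u1, u2⟩ => by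
    filter_upwards [(hZ.isOpen_compl.preimage continuous_fst).mem_nhds p1,
      eventually_mem_nhds_iff.2 u1] with q q1 q2 using ⟨q1, U, q2, u2⟩
  obtain ⟨F, f1, f2, f3, f4⟩ := hC α l Fk Ω o fun p hp => hp.2
  refine ⟨F, Ω, o, hZ.isOpen_compl, ?_, fun p hp => ⟨hp.1, trivial⟩, f1, f2, f3, f4⟩
  rintro ⟨p, t₀⟩ ⟨hp, ht⟩
  have ht : t₀ ≤ 0 := ht
  obtain ⟨r, t₁, t₂, r0, t2, g1⟩ := hg p hp
  set κ := min (min ((c * r) ^ 2 / 2) (r ^ 2 / 2)) 1 with hκ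
  have κ0 : 0 < κ := by positivity
  have κ1 : κ ≤ 1 := min_le_right _ _
  have κ2 : κ ≤ (c * r) ^ 2 / 2 := (min_le_left _ _).trans (min_le_left _ _)
  have κ3 : κ ≤ r ^ 2 / 2 := (min_le_left _ _).trans (min_le_right _ _)
  have r2 : 0 < r ^ 2 := by positivity
  refine ⟨hp, ball p (c * r) ×ˢ Ioo (t₀ - κ) (t₀ + κ), prod_mem_nhds (ball_mem_nhds _ (by positivity))
    (Ioo_mem_nhds (by linarith) (by linarith)), c * r, by positivity, ?_⟩
  filter_upwards [h1, g1, ha.eventually (eventually_lt_atBot (t₀ - 1 - r ^ 2)),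
    tm_fs h1 ha h2 p r2 (t₁ := min t₁ (t₀ + κ - r ^ 2)) (t₂ := max t₂ (t₀ + κ - r ^ 2))
      (max_lt t2 (by linarith)) (half_pos he)] with k ⟨k1, k2⟩ ⟨t, k3, k4⟩ k5 k6
  refine ⟨k1.mcf, k1.proper.mono_set fun q hq => ⟨trivial, by linarith [hq.2.1], by linarith [hq.2.2]⟩,
    fun q hq => hW _ _ _ (t₀ + κ - r ^ 2) p r k1 r0 (by linarith) (by linarith) ?_ q
      ⟨hq.1, hq.2.1, ?_, ?_⟩⟩
  · linarith [k6 t ⟨(min_le_left _ _).trans k3.1, k3.2.trans (le_max_left _ _)⟩ _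
      ⟨min_le_right _ _, le_max_right _ _⟩]
  · have := hq.2.2.1; simp only; linarith
  · have := hq.2.2.2; simp only; linarith

end SL

open SL in
theorem slimS_of (hC : CptS) (hμ : ConvMuS) (hW : A.W1S) (hA : Min.AtomS) : SLimS := by
  intro Λ
  obtain ⟨e, c, he, hc, hW⟩ := hW Λ
  refine ⟨e / 2, half_pos he, fun G α l Fk a b Z h1 ha h2 hZ hg => ?_⟩
  have k1 : ∀ᶠ k in (l : Filter α), Fl (Fk k) (Ioo (a k) (b k)) Λ := h1.mono fun k h => h.1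
  have k2 : ∀ᶠ k in (l : Filter α), LGB (Fk k) G := h1.mono fun k h => h.2.1
  have k3 : ∀ᶠ k in (l : Filter α), Fl (Fk k) (Ioo (a k) (b k)) Λ ∧ 1 ≤ b k :=
    h1.mono fun k h => ⟨h.1, h.2.2⟩
  obtain ⟨F₀, Ω₀, h₀⟩ := stage hC he hc hW k3 ha h2 (closed_of hZ) hg
  have H₀ := fun p => H_zero hμ h₀ k1 h2 (p := p)
  obtain ⟨F, Ω, h⟩ := stage (Z := ∅) hC he hc hW k3 ha h2 isClosed_empty fun p _ => by
    by_cases hp : p ∈ Z
    swap
    · exact hg p hp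
    obtain ⟨r₀, r0, r1⟩ := Metric.isOpen_iff.1 (closed_of (Z := Z \ {p}) fun R =>
      (hZ R).subset (inter_subset_inter_left _ diff_subset)).isOpen_compl p fun h => h.2 rfl
    obtain ⟨R, R1, R2⟩ := ((hA _ Λ p r₀ (h₀.sm H₀ hμ k1) r0
      (h₀.pr_fr.mono_set (Set.prod_mono (fun x hx hz => r1 hx.1 ⟨hz, hx.2⟩) Subset.rfl))
      (((setLIntegral_le_lintegral _ _).trans (h₀.a2_le H₀ hμ k1 k2 h2)).trans_lt
        ENNReal.ofReal_lt_top).ne (e / 4) (by positivity)).and self_mem_nhdsWithin).exists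
    have R2 : 0 < R := R2
    refine ⟨R, -1, -1, R2, by norm_num, ?_⟩
    filter_upwards [(h₀.fs_lim H₀ hμ k1 hZ p (tk := fun _ => -1) (by norm_num) (pow_pos R2 2)
      tendsto_const_nhds).eventually (gt_mem_nhds (show _ < 1 + e / 2 by linarith))] with k hk
    exact ⟨-1, ⟨le_rfl, le_rfl⟩, hk.le⟩
  have H := fun p => H_zero hμ h k1 h2 (p := p)
  have s := h.sm H hμ k1
  refine ⟨F.freeze 0, ⟨s.reg, s.st, isClosed_of_closure_subset fun p hp =>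
    h.pr_fr p hp ⟨notMem_empty _, trivial⟩, s.min, s.ar⟩, h.a2_le H hμ k1 k2 h2, ?_,
    fun tk t ht htk => ?_,
    fun tk t y s ht hs htk => h.fs_lim H hμ k1 (fun R => by simp) y ht hs htk⟩
  · simpa only [compl_empty] using h.conv_st H
  · simpa only [compl_empty, univ_prod_univ] using h.conv_fr H ht htk

theorem MinS.isMCF {S : Mv} {Λ : ℝ} (h : MinS S Λ) : S.IsMCF :=
  ⟨h.reg, fun p hp => by rw [h.st.V_eq, h.min p hp, neg_zero]⟩

theorem MinS.fl {S : Mv} {Λ : ℝ} (h : MinS S Λ) : Fl S univ Λ :=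
  ⟨h.isMCF, fun _ _ => trivial, fun _ hp _ => h.closed.closure_subset hp, h.ar⟩

theorem MinS.sm {S : Mv} {Λ : ℝ} (h : MinS S Λ) : Min.SM S Λ := ⟨h.reg, h.st, h.min, h.ar⟩

end Crest.Agent.N250

end
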