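import Crest.Agent.N250.SL.Main
import Crest.Agent.N250.Tr.Inst2
import Crest.Agent.N250.A.Stm
import Crest.Agent.N250.A.CS0
import Crest.Agent.N250.E.Law
import Crest.Agent.N250.T.Same

/-!
# Row 250, block A (helper89): density one at infinity gives a plane
-/

set_option autoImplicit false
open MeasureTheory Set Filter Topology Metric
open scoped ContDiff InnerProductSpace
open Crest.GeometryTopology.MCF

noncomputable section

namespace Crest.Agent.N250.SL

theorem res_sl' (S : Mv) {J : Set ℝ} {t : ℝ} (ht : t ∈ J) : (S.res (univ ×ˢ J)).sl t = S.sl t :=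
  Set.ext fun _ => ⟨fun h => h.1, fun h => ⟨h, trivial, ht⟩⟩

theorem flatS_of (hW : A.W1S) (hR : ReachAS) : FlatS := by
  intro S Λ p hS hd q hq
  obtain ⟨e, c, he, hc, hW⟩ := hW Λ
  have key : ∀ ρ, 0 < ρ → S.Reach q ρ := fun ρ hρ => by
    obtain ⟨R, h1, h2, h3⟩ := ((hd e he).and_eventually ((eventually_ge_atTop (ρ / c)).and
      (eventually_gt_atTop (dist q.1 p / c)))).exists
    rw [div_le_iff₀ hc] at h2
    rw [div_lt_iff₀ hc] at h3
    have hR0 : 0 < R := by nlinarith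
    have hR2 : 0 < R ^ 2 := by positivity
    have hJ : q.2 ∈ Ioo (q.2 - R ^ 2 - 1) (q.2 + 1) := ⟨by linarith, by linarith⟩
    have hJ' : q.2 - R ^ 2 ∈ Ioo (q.2 - R ^ 2 - 1) (q.2 + 1) := ⟨by linarith, by linarith⟩
    have h4 := hW (S.res (univ ×ˢ Ioo (q.2 - R ^ 2 - 1) (q.2 + 1))) _ _ (q.2 - R ^ 2) p R
      (E.fl_res hS.fl isOpen_Ioo (subset_univ _)
        (Tr.res_mcf (isOpen_univ.prod isOpen_Ioo) hS.isMCF)) hR0 (by linarith) (by linarith)
      (by rwa [Mv.Fs, Mv.mu, res_sl' S hJ', CS.st_sl hS.st _ 0]) q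
      ⟨⟨hq, trivial, hJ⟩, mem_ball.2 (by simpa [mul_comm] using h3),
        by have : 0 < (c * R) ^ 2 := by positivity
           simp only; linarith, by simp⟩
    have h5 : S.Reach q (c * R) := fun y hy => h4 y ((res_sl' S hJ).symm ▸ hy)
    exact h5.mono_reg hS.reg hq (by linarith)
  refine ⟨le_antisymm ?_ (CS.A2_nonneg _ _), key⟩
  have h1 : Tendsto (fun ρ : ℝ => 2 / ρ ^ 2) atTop (𝓝 0) :=
    tendsto_const_nhds.div_atTop (tendsto_pow_atTop two_ne_zero)
  refine ge_of_tendsto h1 ?_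
  filter_upwards [eventually_gt_atTop 0] with ρ hρ
  exact (hR S hS.reg q hq ρ hρ (key ρ hρ)).2

end Crest.Agent.N250.SL

end
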