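import Crest.Agent.N250.SL.Stm
import Crest.Agent.N250.T.CFl
import Crest.Agent.N250.T.Same
import Crest.Agent.N250.FV.Hu0

/-!
# Row 250 (helper16): measure tools for the static limit
-/

set_option autoImplicit false
open MeasureTheory Set Filter Topology Metric
open scoped ContDiff InnerProductSpace
open Crest.GeometryTopology.MCF

noncomputable section

namespace Crest.Agent.N250.SL

lemma cen_pt {p y : E} {r δ : ℝ} (hr : 0 < r) (h0 : 0 ≤ δ) (h1 : δ ≤ 1) (h : dist y p ≤ δ * r)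
    (x : E) :
    gau y (r ^ 2) x ≤ gau p (r ^ 2) x + δ * (r ^ 2)⁻¹ * Real.exp (-‖x - y‖ ^ 2 / (8 * r ^ 2)) := by
  have hpi := Real.pi_gt_three
  set u := ‖x - y‖ with hu
  have u0 : 0 ≤ u := norm_nonneg _
  have h2 : ‖x - p‖ ≤ u + δ * r := by
    have := norm_sub_le_norm_sub_add_norm_sub x y p
    rw [dist_eq_norm] at h; linarith
  have h3 : ‖x - p‖ ^ 2 ≤ u ^ 2 + δ * (u ^ 2 + 2 * r ^ 2) := by
    have a1 : ‖x - p‖ ^ 2 ≤ (u + δ * r) ^ 2 := by gcongr
    have a2 : 2 * (u * r) ≤ u ^ 2 + r ^ 2 := by nlinarith [sq_nonneg (u - r)]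
    have a3 : δ * δ ≤ δ := by nlinarith
    have a4 : δ * δ * r ^ 2 ≤ δ * r ^ 2 := by gcongr
    have a5 : δ * (2 * (u * r)) ≤ δ * (u ^ 2 + r ^ 2) := by gcongr
    nlinarith
  set w := u ^ 2 / (8 * r ^ 2) with hw
  have w0 : 0 ≤ w := by positivity
  have e1 : -u ^ 2 / (4 * r ^ 2) = -w + -w := by rw [hw]; field_simp; ring
  have e2 : -u ^ 2 / (8 * r ^ 2) = -w := by rw [hw, neg_div]
  have h4 : -w + -w + -(δ * (2 * w + 1 / 2)) ≤ -‖x - p‖ ^ 2 / (4 * r ^ 2) := by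
    rw [le_div_iff₀ (by positivity), hw]
    have : (-(u ^ 2 / (8 * r ^ 2)) + -(u ^ 2 / (8 * r ^ 2)) +
      -(δ * (2 * (u ^ 2 / (8 * r ^ 2)) + 1 / 2))) * (4 * r ^ 2) =
      -(u ^ 2 + δ * (u ^ 2 + 2 * r ^ 2)) := by field_simp; ring
    rw [this]; linarith
  have h5 : Real.exp (-w) * Real.exp (-w) * (1 - δ * (2 * w + 1 / 2)) ≤
      Real.exp (-‖x - p‖ ^ 2 / (4 * r ^ 2)) := by
    refine le_trans ?_ (Real.exp_le_exp.2 h4)
    rw [Real.exp_add, Real.exp_add]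
    gcongr
    linarith [Real.add_one_le_exp (-(δ * (2 * w + 1 / 2)))]
  have h6 : Real.exp (-w) * (2 * w + 1 / 2) ≤ 2 := by
    rw [Real.exp_neg, inv_mul_le_iff₀ (Real.exp_pos _)]
    linarith [Real.add_one_le_exp w]
  have x0 := Real.exp_pos (-w)
  have h7 : Real.exp (-w) * Real.exp (-w) ≤
      Real.exp (-‖x - p‖ ^ 2 / (4 * r ^ 2)) + δ * (2 * Real.exp (-w)) := by
    have : δ * (Real.exp (-w) * (2 * w + 1 / 2)) * Real.exp (-w) ≤ δ * 2 * Real.exp (-w) := by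
      gcongr
    nlinarith
  unfold gau
  rw [← hu, e1, e2, Real.exp_add]
  have h8 : (4 * Real.pi * r ^ 2)⁻¹ * 2 ≤ (r ^ 2)⁻¹ := by
    rw [inv_mul_le_iff₀ (by positivity), mul_assoc, mul_assoc, mul_inv_cancel₀ (by positivity)]
    linarith
  have h9 : (4 * Real.pi * r ^ 2)⁻¹ * 2 * (δ * Real.exp (-w)) ≤ (r ^ 2)⁻¹ * (δ * Real.exp (-w)) := by
    gcongr
  have h10 := mul_le_mul_of_nonneg_left h7 (by positivity : 0 ≤ (4 * Real.pi * r ^ 2)⁻¹)
  nlinarith

/-- moving the centre of a Gaussian area (scale invariant) -/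
lemma cen {Λ ε : ℝ} (hΛ : 0 ≤ Λ) (hε : 0 < ε) : ∃ δ : ℝ, 0 < δ ∧ δ ≤ 1 ∧ ∀ μ : Measure E,
    Gau.Rat μ Λ → ∀ (p y : E) (r : ℝ), 0 < r → dist y p ≤ δ * r →
      ∫ x, gau y (r ^ 2) x ∂μ ≤ ∫ x, gau p (r ^ 2) x ∂μ + ε := by
  have hC := Gau.C0_nonneg
  refine ⟨min 1 (ε / (Gau.C0 * Λ + 1)), by positivity, min_le_left _ _, fun μ h p y r hr hd => ?_⟩
  set δ := min 1 (ε / (Gau.C0 * Λ + 1)) with hδ
  have d0 : 0 ≤ δ := by positivity
  have i2 := (Gau.int_exp hΛ h y (c := 8 * r ^ 2) (by positivity)).const_mul (δ * (r ^ 2)⁻¹)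
  have i1 := Gau.int_gau hΛ h p (s := r ^ 2) (by positivity)
  refine (integral_mono (Gau.int_gau hΛ h y (by positivity)) (i1.add i2)
    (cen_pt hr d0 (min_le_left _ _) hd)).trans ?_
  simp only [Pi.add_apply]
  rw [integral_add i1 i2, integral_const_mul]
  have h1 := Gau.integral_exp_le hΛ h y (c := 8 * r ^ 2) (by positivity)
  have h2 : δ * (r ^ 2)⁻¹ * (Gau.C0 * Λ * (8 * r ^ 2 / 8)) = δ * (Gau.C0 * Λ) := by field_simp
  have h3 : δ * (Gau.C0 * Λ + 1) ≤ ε := by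
    rw [← le_div_iff₀ (by positivity)]; exact min_le_right _ _
  have h4 := mul_le_mul_of_nonneg_left h1 (by positivity : 0 ≤ δ * (r ^ 2)⁻¹)
  linarith

/-- cutting off far away and near finitely many points -/
lemma tail_gen {μ : Measure E} {Λ : ℝ} (hΛ : 0 ≤ Λ) (h : Gau.Rat μ Λ) {y : E} {s R ρ : ℝ}
    (hs : 0 < s) (hR : 0 ≤ R) (hρ : 0 < ρ) (T : Finset E) {χ : E → ℝ} (hc : Continuous χ)
    (h0 : ∀ x, 0 ≤ χ x) (h1 : ∀ x, χ x ≤ 1)
    (h2 : ∀ x ∈ ball y (R * √s), (∀ z ∈ T, x ∉ ball z ρ) → χ x = 1) :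
    |∫ x, gau y s x ∂μ - ∫ x, χ x * gau y s x ∂μ| ≤
      Gau.C0 * Λ * Real.exp (-R ^ 2 / 8) + T.card * (s⁻¹ * (Λ * ρ ^ 2)) := by
  have hpi := Real.pi_gt_three
  have i1 := Gau.int_gau hΛ h y hs
  have i2 : Integrable (fun x => χ x * gau y s x) μ :=
    i1.bdd_mul (c := 1) hc.aestronglyMeasurable
      (.of_forall fun x => by rw [Real.norm_of_nonneg (h0 _)]; exact h1 _)
  have i3 : ∀ z : E, Integrable ((ball z ρ).indicator fun _ => s⁻¹) μ := fun z =>
    (integrableOn_const ((h z ρ hρ).trans_lt ENNReal.ofReal_lt_top).ne).integrable_indicator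
      measurableSet_ball
  have i4 := i1.indicator (s := (ball y (R * √s))ᶜ) measurableSet_ball.compl
  have i5 := integrable_finsetSum T fun z _ => i3 z
  rw [← integral_sub i1 i2, ← Real.norm_eq_abs]
  refine (norm_integral_le_of_norm_le (i4.add i5) (.of_forall fun x => ?_)).trans ?_
  · have g0 := (Gau.gau_pos y hs x).le
    have g1 : gau y s x ≤ s⁻¹ := by
      unfold gau
      refine (mul_le_of_le_one_right (by positivity) (Real.exp_le_one_iff.2 ?_)).trans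
        (inv_anti₀ hs (by nlinarith))
      rw [neg_div]; exact neg_nonpos.2 (by positivity)
    have n0 : ∀ z ∈ T, 0 ≤ (ball z ρ).indicator (fun _ => s⁻¹) x := fun z _ =>
      indicator_nonneg (fun _ _ => by positivity) _
    have n1 : 0 ≤ (ball y (R * √s))ᶜ.indicator (gau y s) x :=
      indicator_nonneg (fun _ _ => (Gau.gau_pos y hs _).le) _
    have n2 := Finset.sum_nonneg n0
    rw [Real.norm_of_nonneg (sub_nonneg.2 (mul_le_of_le_one_left g0 (h1 _))), Pi.add_apply]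
    have g2 : gau y s x - χ x * gau y s x ≤ gau y s x := sub_le_self _ (mul_nonneg (h0 _) g0)
    by_cases hx : x ∈ ball y (R * √s)
    · by_cases hz : ∀ z ∈ T, x ∉ ball z ρ
      · rw [h2 x hx hz]; linarith
      · push Not at hz
        obtain ⟨z, z1, z2⟩ := hz
        have := Finset.single_le_sum n0 z1
        rw [indicator_of_mem z2] at this
        linarith
    · rw [indicator_of_mem hx]; linarith
  · simp only [Pi.add_apply]
    rw [integral_add i4 i5, integral_indicator measurableSet_ball.compl,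
      integral_finsetSum T fun z _ => i3 z]
    refine add_le_add (Gau.tail hΛ h y hs hR) ?_
    rw [← nsmul_eq_mul]
    refine Finset.sum_le_card_nsmul _ _ _ fun z _ => ?_
    rw [integral_indicator measurableSet_ball, setIntegral_const, smul_eq_mul, mul_comm]
    gcongr
    exact ENNReal.toReal_le_of_le_ofReal (by positivity) (h z ρ hρ)

lemma exists_R (C : ℝ) {ε : ℝ} (hε : 0 < ε) : ∃ R : ℝ, 0 ≤ R ∧ C * Real.exp (-R ^ 2 / 8) < ε := by
  have t0 : Tendsto (fun R : ℝ => C * Real.exp (-R ^ 2 / 8)) atTop (𝓝 0) := by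
    simpa using (Real.tendsto_exp_atBot.comp ((tendsto_neg_atTop_atBot.comp
      (tendsto_pow_atTop two_ne_zero)).atBot_div_const (by norm_num : (0 : ℝ) < 8))).const_mul C
  obtain ⟨R, r1, hR⟩ := ((t0.eventually (gt_mem_nhds hε)).and (eventually_ge_atTop 0)).exists
  exact ⟨R, hR, r1⟩

/-- the fundamental theorem of calculus as an inequality with a lower integral -/
lemma ftc_le {f : ℝ → ℝ} {a b : ℝ} (hab : a ≤ b) (h : ∀ s ∈ Icc a b, DifferentiableAt ℝ f s) :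
    ENNReal.ofReal |f b - f a| ≤ ∫⁻ s in Ioo a b, ENNReal.ofReal |deriv f s| := by
  by_cases ht : ∫⁻ s in Ioo a b, ENNReal.ofReal |deriv f s| = ⊤
  · rw [ht]; exact le_top
  have i1 : IntegrableOn (deriv f) (Ioo a b) := by
    refine ⟨(measurable_deriv f).aestronglyMeasurable, ?_⟩
    rw [hasFiniteIntegral_iff_norm]
    exact lt_top_iff_ne_top.2 ht
  have i2 : IntervalIntegrable (deriv f) volume a b :=
    (intervalIntegrable_iff_integrableOn_Ioo_of_le hab).2 i1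
  rw [← intervalIntegral.integral_eq_sub_of_hasDerivAt
    (fun s hs => (h s (by rwa [uIcc_of_le hab] at hs)).hasDerivAt) i2,
    intervalIntegral.integral_of_le hab, integral_Ioc_eq_integral_Ioo,
    ← ofReal_integral_eq_lintegral_ofReal i1.abs (.of_forall fun _ => abs_nonneg _)]
  exact ENNReal.ofReal_le_ofReal abs_integral_le_integral_abs

/-- a positive value gives a positive integral -/
lemma int_pos {F : Mv} (hF : F.Reg) {t : ℝ} {u : E → ℝ} (hc : ContinuousOn u (F.sl t))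
    (h0 : ∀ x, 0 ≤ u x) (hi : Integrable u (F.mu t)) {x : E} (hx : x ∈ F.sl t) (hu : 0 < u x) :
    0 < ∫ y, u y ∂F.mu t := by
  rw [integral_pos_iff_support_of_nonneg h0 hi]
  obtain ⟨U, hU, h1⟩ := mem_nhdsWithin_iff_exists_mem_nhds_inter.1
    ((hc x hx).eventually (lt_mem_nhds hu))
  refine (hF.mu_pos hx hU).trans_le (measure_mono_ae ?_)
  filter_upwards [Hu.ae_sl hF t] with y hy h2
  exact (h1 ⟨h2, hy⟩ : 0 < u y).ne'

/-- exhaustion of an open set by compact sets -/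
lemma open_sup {μ : Measure E} {f : E → ENNReal} {O : Set E} {c : ENNReal} (hO : IsOpen O)
    (h : ∀ K, IsCompact K → K ⊆ O → ∫⁻ x in K, f x ∂μ ≤ c) : ∫⁻ x in O, f x ∂μ ≤ c := by
  obtain ⟨C, c1, c2, c3, c4⟩ := hO.exists_iUnion_isClosed
  have e : O = ⋃ n : ℕ, C n ∩ closedBall 0 n := by
    refine Subset.antisymm (fun x hx => ?_) (iUnion_subset fun n => inter_subset_left.trans (c2 n))
    obtain ⟨n, hn⟩ := mem_iUnion.1 (c3.symm ▸ hx : x ∈ ⋃ n, C n)
    obtain ⟨m, hm⟩ := exists_nat_ge (dist x 0)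
    exact mem_iUnion.2 ⟨max n m, c4 (le_max_left n m) hn,
      hm.trans (Nat.cast_le.2 (le_max_right n m))⟩
  rw [e, setLIntegral_iUnion_of_directed _ (Monotone.directed_le fun i j hij =>
    inter_subset_inter (c4 hij) (closedBall_subset_closedBall (Nat.cast_le.2 hij)))]
  exact iSup_le fun n => h _ ((isCompact_closedBall _ _).inter_left (c1 n))
    (inter_subset_left.trans (c2 n))

/-- a continuous cut-off between a compact and an open set -/
lemma exists_cut {K O : Set E} (hK : IsCompact K) (hO : IsOpen O) (h : K ⊆ O) :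
    ∃ (χ : E → ℝ) (K' : Set E), Continuous χ ∧ IsCompact K' ∧ K' ⊆ O ∧ (∀ x, 0 ≤ χ x) ∧
      (∀ x, χ x ≤ 1) ∧ (∀ x ∈ K, χ x = 1) ∧ ∀ x ∉ K', χ x = 0 := by
  obtain ⟨K', k1, k2, k3⟩ := exists_compact_between hK hO h
  obtain ⟨f, f1, f2, -, f3⟩ := exists_continuous_one_zero_of_isCompact hK
    isOpen_interior.isClosed_compl (disjoint_compl_right_iff_subset.2 k2)
  exact ⟨f, K', f.continuous, k1, k3, fun x => (f3 x).1, fun x => (f3 x).2, fun x hx => f1 hx,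
    fun x hx => f2 fun h => hx (interior_subset h)⟩

/-- times with small `∫ H²` -/
lemma pick {α : Type} {l : Ultrafilter α} {Fk : α → Mv} (h : H2Van l Fk) (R : ℝ) {t₁ t₂ ε : ℝ}
    (h1 : t₁ < t₂) (h2 : t₂ < 0) (hε : 0 < ε) : ∃ (tk : α → ℝ) (t : ℝ), t ∈ Icc t₁ t₂ ∧
      Tendsto tk l (𝓝 t) ∧ ∀ᶠ k in (l : Filter α),
        ∫⁻ x in ball 0 R, ENNReal.ofReal ((Fk k).H (x, tk k) ^ 2) ∂(Fk k).mu (tk k) ≤
          ENNReal.ofReal ε := by
  have p0 : 0 < ENNReal.ofReal ε * ENNReal.ofReal (t₂ - t₁) :=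
    ENNReal.mul_pos (ENNReal.ofReal_pos.2 hε).ne' (ENNReal.ofReal_pos.2 (by linarith)).ne'
  have e : ∀ᶠ k in (l : Filter α), ∃ t ∈ Icc t₁ t₂,
      ∫⁻ x in ball 0 R, ENNReal.ofReal ((Fk k).H (x, t) ^ 2) ∂(Fk k).mu t ≤ ENNReal.ofReal ε := by
    filter_upwards [(h R t₁ t₂ h2).eventually (gt_mem_nhds p0)] with k hk
    by_contra hn
    push Not at hn
    refine hk.not_ge ?_
    rw [← Real.volume_Ioo, ← setLIntegral_const]
    refine setLIntegral_mono' measurableSet_Ioo fun t ht => (hn t (Ioo_subset_Icc_self ht)).le.trans ?_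
    rw [← lintegral_indicator measurableSet_ball]
    refine lintegral_mono fun x => ?_
    by_cases hx : x ∈ ball (0 : E) R
    · rw [indicator_of_mem hx, indicator_of_mem (by exact ⟨hx, trivial⟩)]
    · rw [indicator_of_notMem hx]; exact zero_le
  classical
  have e2 : ∀ k, ∃ t ∈ Icc t₁ t₂, (∃ t ∈ Icc t₁ t₂,
      ∫⁻ x in ball 0 R, ENNReal.ofReal ((Fk k).H (x, t) ^ 2) ∂(Fk k).mu t ≤ ENNReal.ofReal ε) →
      ∫⁻ x in ball 0 R, ENNReal.ofReal ((Fk k).H (x, t) ^ 2) ∂(Fk k).mu t ≤ ENNReal.ofReal ε :=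
    fun k => by
      by_cases hk : ∃ t ∈ Icc t₁ t₂,
        ∫⁻ x in ball 0 R, ENNReal.ofReal ((Fk k).H (x, t) ^ 2) ∂(Fk k).mu t ≤ ENNReal.ofReal ε
      · obtain ⟨t, a1, a2⟩ := hk; exact ⟨t, a1, fun _ => a2⟩
      · exact ⟨t₁, ⟨le_rfl, h1.le⟩, fun h => absurd h hk⟩
  choose tk k1 k2 using e2
  obtain ⟨t, a1, a2⟩ := isCompact_Icc.ultrafilter_le_nhds (l.map tk)
    (le_principal_iff.2 (mem_map.2 (Eventually.of_forall k1)))
  exact ⟨tk, t, a1, a2, e.mono fun k hk => k2 k hk⟩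

end Crest.Agent.N250.SL

end
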