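import Crest.Agent.N250.SL.Tm
import Crest.Agent.N250.T.SelfSim
import Crest.Agent.N250.Cv.Api

/-!
# Row 250 (helper16): a smooth limit with vanishing `∫∫ H²` is static and minimal
-/

set_option autoImplicit false
open MeasureTheory Set Filter Topology Metric
open scoped ContDiff InnerProductSpace
open Crest.GeometryTopology.MCF

noncomputable section

namespace Crest.Agent.N250.SL

open CFl

/-- a smooth limit over the open set `O`, up to the time `0` -/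
structure Lm {α : Type} (l : Filter α) (Fk : α → Mv) (F : Mv) (Ω : Set ST) (O : Set E) : Prop where
  oΩ : IsOpen Ω
  oO : IsOpen O
  sub : O ×ˢ Iic 0 ⊆ Ω
  sup : Ω ⊆ O ×ˢ univ
  mcf : F.IsMCF
  mem : F.M ⊆ Ω
  pr : F.Proper Ω
  conv : Conv l Fk F Ω

lemma jt_A2 (F : Mv) (t : ℝ) (x : E) :
    F.A2 (x, t) = ∑ a, ∑ b, (jt F t x).2.2 a b * (jt F t x).2.2 a b := by
  simp only [Mv.A2, Finset.sum_apply, Pi.mul_apply, jt]

lemma jt_H (F : Mv) (t : ℝ) (x : E) : F.H (x, t) = ∑ a, (jt F t x).2.2 a a := by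
  simp only [Mv.H, Finset.sum_apply, jt]

lemma cpt_of {F : Mv} {Ω C : Set ST} (h : F.Proper Ω) (hC : IsCompact C) (hs : C ⊆ Ω) :
    IsCompact (F.M ∩ C) := by
  have : F.M ∩ C = closure F.M ∩ C :=
    Subset.antisymm (inter_subset_inter_left _ subset_closure) fun p hp => ⟨h p hp.1 (hs hp.2), hp.2⟩
  rw [this]
  exact hC.inter_left isClosed_closure

lemma intg_of {F : Mv} {Ω : Set ST} (hF : F.Reg) (h : F.Proper Ω) {K : Set E} (hK : IsCompact K)
    {t : ℝ} (hs : K ×ˢ {t} ⊆ Ω) {u : E → ℝ} (hu : ContinuousOn u (F.sl t))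
    (h0 : ∀ x ∉ K, u x = 0) : Integrable u (F.mu t) :=
  Hu.int_cpt muFinS_holds hF hu (cpt_of h (hK.prod isCompact_singleton) hs) inter_subset_left
    fun x hx hn => h0 x fun h => hn ⟨hx, h, rfl⟩

lemma intg_fl {F : Mv} {I : Set ℝ} {Λ : ℝ} (hF : Fl F I Λ) {K : Set E} (hK : IsCompact K) (t : ℝ)
    {g : PNA → ℝ} (hg : Continuous g) (h0 : ∀ q : PNA, q.1 ∉ K → g q = 0) :
    Integrable (fun x => g (jt F t x)) (F.mu t) := by
  obtain ⟨R, r1⟩ := hK.isBounded.subset_ball (0 : E)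
  exact (nice_fl hF t).intg hg (y := 0) (b := R) fun q hq => h0 q fun h => (r1 h).not_ge hq

variable {α : Type} {l : Filter α} {Fk : α → Mv} {F : Mv} {Ω : Set ST} {O K : Set E}

namespace Lm

lemma tube (h : Lm l Fk F Ω O) (hK : IsCompact K) (hs : K ⊆ O) :
    ∃ τ, 0 < τ ∧ K ×ˢ Iic τ ⊆ Ω := by
  obtain ⟨u, v, -, v1, u2, v2, h1⟩ := generalized_tube_lemma hK (isCompact_singleton (x := (0 : ℝ)))
    h.oΩ ((Set.prod_mono hs (singleton_subset_iff.2 self_mem_Iic)).trans h.sub)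
  obtain ⟨τ, t1, t2⟩ := nhds_basis_closedBall.mem_iff.1 (v1.mem_nhds (v2 rfl))
  refine ⟨τ, t1, fun p hp => ?_⟩
  rcases le_total p.2 0 with h2 | h2
  · exact h.sub ⟨hs hp.1, h2⟩
  · exact h1 ⟨u2 hp.1, t2 (by rw [mem_closedBall, dist_zero_right, Real.norm_of_nonneg h2]; exact hp.2)⟩

lemma intg (h : Lm l Fk F Ω O) (hK : IsCompact K) (hs : K ⊆ O) {t : ℝ} (ht : t ≤ 0) {u : E → ℝ}
    (hu : ContinuousOn u (F.sl t)) (h0 : ∀ x ∉ K, u x = 0) : Integrable u (F.mu t) :=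
  intg_of h.mcf.1 h.pr hK ((Set.prod_mono hs (singleton_subset_iff.2 (mem_Iic.2 ht))).trans h.sub) hu h0

lemma conv_sp (hμ : ConvMuS) (h : Lm l Fk F Ω O) (hK : IsCompact K) (hs : K ⊆ O) {g : PNA → ℝ}
    (hg : Continuous g) (h0 : ∀ q : PNA, q.1 ∉ K → g q = 0) {tk : α → ℝ} {t : ℝ} (ht : t ≤ 0)
    (hk : Tendsto tk l (𝓝 t)) :
    Tendsto (fun k => ∫ x, g (jt (Fk k) (tk k) x) ∂(Fk k).mu (tk k)) l
      (𝓝 (∫ x, g (jt F t x) ∂F.mu t)) := by
  obtain ⟨δ, hδ, h1⟩ := h.tube hK hs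
  have h2 : δ / 2 < δ := by linarith
  have := hμ α l Fk F _ (K ×ˢ closedBall t δ) h.oΩ h.conv (hK.prod (isCompact_closedBall _ _))
    ((Set.prod_mono Subset.rfl fun s hs => by
      have := (abs_le.1 (show |s - t| ≤ δ from hs)).2
      exact show s ≤ δ by linarith).trans h1)
    (fun q => cut (δ / 2) δ (dist q.1.2 t) * g (q.1.1, q.2))
    (((cut_cont _ _).comp (by fun_prop)).mul (hg.comp (by fun_prop)))
    (fun q hq => by
      rcases not_and_or.1 hq with h | h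
      · exact mul_eq_zero_of_right _ (h0 _ h)
      · exact mul_eq_zero_of_left (cut_zero h2 (not_le.1 h).le) _) tk t hk
  simp only [dist_self, cut_one h2 (half_pos hδ).le, one_mul] at this
  refine this.congr' ?_
  filter_upwards [hk.eventually (closedBall_mem_nhds t (half_pos hδ))] with k h
  simp only [cut_one h2 h, one_mul, jt]

lemma inO (h : Lm l Fk F Ω O) {p : ST} (hp : p ∈ F.M) : p.1 ∈ O := (h.sup (h.mem hp)).1

end Lm

/-- the limit is minimal -/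
lemma H_zero (hμ : ConvMuS) {l : Ultrafilter α} {Ik : α → Set ℝ} {Λ : ℝ} (h : Lm l Fk F Ω O)
    (hk : ∀ᶠ k in (l : Filter α), Fl (Fk k) (Ik k) Λ) (h2 : H2Van l Fk) {p : ST} (hp : p ∈ F.M)
    (ht : p.2 ≤ 0) : F.H p = 0 := by
  by_contra hn
  obtain ⟨χ, K, c1, k1, k2, c2, c3, c4, c5⟩ := exists_cut (isCompact_singleton (x := p.1)) h.oO
    (singleton_subset_iff.2 (h.inO hp))
  obtain ⟨τ, t1, t2⟩ := h.tube k1 k2
  obtain ⟨R, r1⟩ := k1.isBounded.subset_ball (0 : E)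
  have hR := h.mcf.1
  have cf : ContinuousOn (fun q : ST => χ q.1 * F.H q ^ 2) F.M :=
    (c1.comp continuous_fst).continuousOn.mul ((Hu.sm_H hR).continuousOn.pow 2)
  have cw : ContinuousAt (fun s => ∫ x, χ x * F.H (x, s) ^ 2 ∂F.mu s) p.2 :=
    FV.cont_int' (J := Icc (p.2 - 1) τ) hR cf
      ⟨_, cpt_of h.pr (k1.prod isCompact_Icc) ((Set.prod_mono Subset.rfl Icc_subset_Iic_self).trans t2),
        inter_subset_left, fun q hq hJ hn =>
          mul_eq_zero_of_left (c5 _ fun h => hn ⟨hq, h, hJ⟩) _⟩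
      (Icc_mem_nhds (by linarith) (by linarith))
  have cs : ContinuousOn (fun x => χ x * F.H (x, p.2) ^ 2) (F.sl p.2) :=
    cf.comp (f := fun x : E => ((x, p.2) : ST)) (by fun_prop) fun _ h => h
  have w0 : 0 < ∫ x, χ x * F.H (x, p.2) ^ 2 ∂F.mu p.2 :=
    int_pos hR cs (fun x => mul_nonneg (c2 x) (sq_nonneg _))
      (h.intg k1 k2 ht cs fun x hx => by rw [c5 x hx, zero_mul]) (x := p.1) hp
      (by rw [c4 _ rfl, one_mul]; exact sq_pos_of_ne_zero hn)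
  obtain ⟨δ, d1, d2⟩ := nhds_basis_closedBall.mem_iff.1 (cw.eventually (lt_mem_nhds (half_lt_self w0)))
  obtain ⟨tk, t, a1, a2, a3⟩ := pick h2 R (t₁ := p.2 - δ) (t₂ := p.2 - δ / 2) (by linarith)
    (by linarith) (half_pos w0)
  have g1 : Continuous fun q : PNA => χ q.1 * (∑ a, q.2.2 a a) ^ 2 := by fun_prop
  have g0 : ∀ q : PNA, q.1 ∉ K → χ q.1 * (∑ a, q.2.2 a a) ^ 2 = 0 := fun q hq => by
    rw [c5 _ hq, zero_mul]
  have e1 := h.conv_sp hμ k1 k2 g1 g0 (by linarith [a1.2]) a2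
  have e2 := d2 (show t ∈ closedBall p.2 δ by
    rw [mem_closedBall, Real.dist_eq, abs_le]; constructor <;> linarith [a1.1, a1.2])
  simp only [← jt_H] at e1
  refine (not_le.2 e2) (le_of_tendsto e1 ?_)
  filter_upwards [hk, a3] with k f1 f2
  have i1 := intg_fl f1 k1 (tk k) g1 g0
  simp only [← jt_H] at i1
  rw [← ENNReal.ofReal_le_ofReal_iff (half_pos w0).le, ofReal_integral_eq_lintegral_ofReal i1
    (.of_forall fun x => mul_nonneg (c2 _) (sq_nonneg _))]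
  refine le_trans ?_ f2
  rw [← lintegral_indicator measurableSet_ball]
  refine lintegral_mono fun x => ?_
  by_cases hx : x ∈ ball (0 : E) R
  · rw [indicator_of_mem hx]
    exact ENNReal.ofReal_le_ofReal (mul_le_of_le_one_left (sq_nonneg _) (c3 _))
  · rw [show χ (jt (Fk k) (tk k) x).1 = 0 from c5 x fun h => hx (r1 h), zero_mul,
      ENNReal.ofReal_zero]
    exact zero_le

namespace Lm

variable (h : Lm l Fk F Ω O) (hH : ∀ p ∈ F.M, p.2 ≤ 0 → F.H p = 0)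
include h hH

lemma V_zero {p : ST} (hp : p ∈ F.M) (ht : p.2 ≤ 0) : F.V p = 0 := by
  rw [h.mcf.2 p hp, hH p hp ht, neg_zero]

lemma int_const {g : E → ℝ} (hg : ContDiff ℝ 1 g) (hK : IsCompact K) (hs : K ⊆ O)
    (h0 : ∀ x ∉ K, g x = 0) {t : ℝ} (ht : t ≤ 0) : ∫ x, g x ∂F.mu t = ∫ x, g x ∂F.mu 0 := by
  obtain ⟨τ, t1, t2⟩ := h.tube hK hs
  have hD : ∀ s ∈ Icc t 0, HasDerivAt (fun s => ∫ x, g x ∂F.mu s) 0 s := fun s hs => by
    refine (hasD h.mcf.1 hg h0 (cpt_of h.pr (hK.prod isCompact_Icc)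
      ((Set.prod_mono Subset.rfl Icc_subset_Iic_self).trans t2)) (t₁ := t - 1) (t := s)
      ⟨by linarith [hs.1], by linarith [hs.2]⟩).congr_deriv ?_
    rw [Hu.int_congr h.mcf.1 (v := fun _ => 0) fun x hx => by
      rw [h.V_zero hH hx hs.2, zero_mul], integral_zero]
  exact (constant_of_has_deriv_right_zero (fun s hs => (hD s hs).continuousAt.continuousWithinAt)
    (fun s hs => (hD s (Ico_subset_Icc_self hs)).hasDerivWithinAt) 0 ⟨ht, le_rfl⟩).symm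

lemma sl_sub {s t : ℝ} (hs : s ≤ 0) (ht : t ≤ 0) : F.sl s ⊆ F.sl t := fun x hx => by
  by_contra hn
  have hO : x ∈ O := h.inO (p := (x, s)) hx
  have h1 : ((x, t) : ST) ∉ closure F.M := fun h1 => hn (h.pr _ h1 (h.sub ⟨hO, ht⟩))
  have h2 : {y : E | ((y, t) : ST) ∉ closure F.M} ∩ O ∈ 𝓝 x :=
    inter_mem ((isClosed_closure.isOpen_compl.preimage (f := fun y : E => ((y, t) : ST))
      (by fun_prop)).mem_nhds h1) (h.oO.mem_nhds hO)
  obtain ⟨r, r0, r1⟩ := nhds_basis_closedBall.mem_iff.1 h2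
  let χ : ContDiffBump x := ⟨r / 2, r, half_pos r0, half_lt_self r0⟩
  have c0 : ∀ y ∉ closedBall x r, χ y = 0 := fun y hy => χ.zero_of_le_dist (not_le.1 hy).le
  have kO : closedBall x r ⊆ O := r1.trans inter_subset_right
  have e1 := h.int_const hH χ.contDiff (isCompact_closedBall x r) kO c0 hs
  have e2 := h.int_const hH χ.contDiff (isCompact_closedBall x r) kO c0 ht
  have e3 : 0 < ∫ y, χ y ∂F.mu s :=
    int_pos h.mcf.1 χ.continuous.continuousOn χ.nonneg'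
      (h.intg (isCompact_closedBall x r) kO hs χ.continuous.continuousOn c0) hx
      (by rw [χ.one_of_mem_closedBall (mem_closedBall_self (half_pos r0).le)]; exact one_pos)
  have e4 : ∫ y, χ y ∂F.mu t = 0 := by
    rw [Hu.int_congr h.mcf.1 (v := fun _ => 0) fun y hy =>
      c0 y fun hb => (r1 hb).1 (subset_closure hy), integral_zero]
  linarith

lemma sl_eq {t : ℝ} (ht : t ≤ 0) : F.sl t = F.sl 0 :=
  Subset.antisymm (h.sl_sub hH ht le_rfl) (h.sl_sub hH le_rfl ht)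

lemma mem_iff {t : ℝ} (ht : t ≤ 0) (x : E) : (x, t) ∈ F.M ↔ (x, 0) ∈ F.M :=
  Set.ext_iff.1 (h.sl_eq hH ht) x

lemma n_sq {t : ℝ} (ht : t ≤ 0) {x : E} (hx : (x, 0) ∈ F.M) :
    ⟪F.n (x, 0), F.n (x, t)⟫_ℝ ^ 2 = 1 := by
  have hR := h.mcf.1
  have ht' := (h.mem_iff hH ht x).2 hx
  have e : (F.freeze 0).M = (F.freeze t).M := Set.ext fun p => (h.mem_iff hH ht p.1).symm
  have a1 := Tr.PL_mem (SS.freeze_reg hR 0) (p := (x, 0)) hx (F.n (x, t))
  rw [e] at a1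
  have a2 := SS.cone_n (SS.freeze_reg hR t) (p := (x, 0)) ht' a1
  rw [zero_mul] at a2
  change ⟪F.n (x, t), F.n (x, t) - ⟪F.n (x, 0), F.n (x, t)⟫_ℝ • F.n (x, 0)⟫_ℝ = 0 at a2
  rw [inner_sub_right, inner_smul_right, Tr.n_n hR ht', real_inner_comm (F.n (x, 0))] at a2
  linarith

lemma n_eq {t : ℝ} (ht : t ≤ 0) {x : E} (hx : (x, 0) ∈ F.M) : F.n (x, t) = F.n (x, 0) := by
  have hR := h.mcf.1
  have c : ContinuousOn (fun s : ℝ => ⟪F.n (x, 0), F.n (x, s)⟫_ℝ) (Icc t 0) :=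
    continuousOn_const.inner ((Tr.sm_n hR).continuousOn.comp (f := fun s : ℝ => ((x, s) : ST))
      (by fun_prop) fun s hs => (h.mem_iff hH hs.2 x).2 hx)
  have a1 : 0 < ⟪F.n (x, 0), F.n (x, t)⟫_ℝ := by
    by_contra hn
    obtain ⟨s, s1, s2⟩ := intermediate_value_Icc ht c
      (show (0 : ℝ) ∈ Icc _ _ from ⟨not_lt.1 hn, by rw [Tr.n_n hR hx]; exact zero_le_one⟩)
    have := h.n_sq hH s1.2 hx
    simp only at s2
    rw [s2] at this
    norm_num at this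
  have a2 : ⟪F.n (x, 0), F.n (x, t)⟫_ℝ = 1 := by
    have := h.n_sq hH ht hx
    nlinarith
  exact ((inner_eq_one_iff_of_norm_eq_one (Tr.n_unit hR hx)
    (Tr.n_unit hR ((h.mem_iff hH ht x).2 hx))).1 a2).symm

lemma same {t : ℝ} (ht : t ≤ 0) : (F.freeze t).Same (F.freeze 0) :=
  ⟨Set.ext fun p => h.mem_iff hH ht p.1,
    fun p hp => h.n_eq hH ht ((h.mem_iff hH ht p.1).1 hp), fun _ _ => rfl⟩

lemma jt_eq {t : ℝ} (ht : t ≤ 0) {x : E} (hx : (x, 0) ∈ F.M) : jt F t x = jt F 0 x := by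
  have hR := h.mcf.1
  have ht' := (h.mem_iff hH ht x).2 hx
  refine Prod.ext rfl (Prod.ext (h.n_eq hH ht hx) (funext fun a => funext fun b => ?_))
  exact (SS.freeze_D hR (Tr.sm_nu hR b) (p := (x, 0)) ht' a).symm.trans
    (((h.same hH ht).A a b (x, 0) ht').trans (SS.freeze_D hR (Tr.sm_nu hR b) (p := (x, 0)) hx a))

lemma mu_eq {t : ℝ} (ht : t ≤ 0) : F.mu t = F.mu 0 := by rw [Mv.mu, h.sl_eq hH ht, Mv.mu]

/-- convergence of integrals at all times `t ≤ 0` to the integral over the top slice -/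
lemma conv_top (hμ : ConvMuS) (hK : IsCompact K) (hs : K ⊆ O) {g : PNA → ℝ}
    (hg : Continuous g) (h0 : ∀ q : PNA, q.1 ∉ K → g q = 0) {tk : α → ℝ} {t : ℝ} (ht : t ≤ 0)
    (hk : Tendsto tk l (𝓝 t)) :
    Tendsto (fun k => ∫ x, g (jt (Fk k) (tk k) x) ∂(Fk k).mu (tk k)) l
      (𝓝 (∫ x, g (jt F 0 x) ∂F.mu 0)) := by
  have := h.conv_sp hμ hK hs hg h0 ht hk
  rwa [h.mu_eq hH ht, Hu.int_congr h.mcf.1 (v := fun x => g (jt F 0 x)) fun x hx => by
    rw [h.jt_eq hH ht hx]] at this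

lemma conv_st : Conv l Fk (F.freeze 0) (O ×ˢ Iio 0) :=
  Cv.conv_congr (Cv.conv_mono h.conv ((Set.prod_mono Subset.rfl Iio_subset_Iic_self).trans h.sub))
    fun p hp => ⟨univ ×ˢ Iio 0, (isOpen_univ.prod isOpen_Iio).mem_nhds ⟨trivial, hp.2⟩,
      ⟨fun q hq => h.mem_iff hH (le_of_lt hq.2) q.1,
        fun q hq hM => h.n_eq hH (le_of_lt hq.2) ((h.mem_iff hH (le_of_lt hq.2) q.1).1 hM),
        fun q hq hM => h.V_zero hH hM (le_of_lt hq.2)⟩,
      .of_forall fun _ => ⟨fun _ _ => Iff.rfl, fun _ _ _ => rfl, fun _ _ _ => rfl⟩⟩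

lemma conv_fr {tk : α → ℝ} {t : ℝ} (ht : t ≤ 0) (hk : Tendsto tk l (𝓝 t)) :
    Conv l (fun k => (Fk k).freeze (tk k)) (F.freeze 0) (O ×ˢ univ) :=
  (h.same hH ht).conv (Cv.conv_mono (Cv.conv_freeze h.conv h.oΩ hk) fun _ hp => h.sub ⟨hp.1, ht⟩)

end Lm

end Crest.Agent.N250.SL

end
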