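import Crest.Agent.N250.SL.Ms
import Crest.Agent.N250.T.FsC
import Crest.Agent.N250.FV.Main

/-!
# Row 250 (helper16): small `∫∫ H²` makes the area measures almost independent of time
-/

set_option autoImplicit false
open MeasureTheory Set Filter Topology Metric
open scoped ContDiff InnerProductSpace
open Crest.GeometryTopology.MCF

noncomputable section

namespace Crest.Agent.N250.SL

variable {F : Mv} {g : E → ℝ}

lemma Dt_sp (hF : F.Reg) (hg : Differentiable ℝ g) {p : ST} (hp : p ∈ F.M) :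
    F.Dt (fun q => g q.1) p = F.V p * fderiv ℝ g p.1 (F.n p) := by
  have h : HasFDerivAt (fun q : ST => g q.1)
      ((fderiv ℝ g p.1).comp (ContinuousLinearMap.fst ℝ E ℝ)) p :=
    (hg p.1).hasFDerivAt.comp p hasFDerivAt_fst
  rw [Mv.Dt, Tr.td_eq h.hasFDerivWithinAt (Tr.vel_mem hF hp)]
  simp

/-- first variation for a test function which does not depend on time -/
lemma hasD (hF : F.Reg) (hg : ContDiff ℝ 1 g) {K : Set E} (h0 : ∀ x ∉ K, g x = 0) {t₁ t₂ t : ℝ}
    (hK : IsCompact (F.M ∩ K ×ˢ Icc t₁ t₂)) (ht : t ∈ Ioo t₁ t₂) :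
    HasDerivAt (fun s => ∫ x, g x ∂F.mu s)
      (∫ x, F.V (x, t) * (fderiv ℝ g x (F.n (x, t)) + g x * F.H (x, t)) ∂F.mu t) t := by
  have := FV.fv' (f := fun q : ST => g q.1) (J := Icc t₁ t₂) hF
    (hg.comp contDiff_fst).contDiffOn
    ⟨_, hK, inter_subset_left, fun p hp hJ hn => h0 _ fun h => hn ⟨hp, h, hJ⟩⟩
    (Icc_mem_nhds ht.1 ht.2)
  refine this.congr_deriv (Hu.int_congr hF fun x hx => ?_)
  rw [Dt_sp hF (hg.differentiable one_ne_zero) hx]; ring

lemma der_le {Λ R B η t : ℝ} (hF : F.IsMCF) (hA : F.AR Λ) (hR : 0 < R) (hB : 0 ≤ B) (hη : 0 < η)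
    (h0 : ∀ x ∉ ball (0 : E) R, g x = 0 ∧ fderiv ℝ g x = 0)
    (h1 : ∀ x, |g x| ≤ B ∧ ‖fderiv ℝ g x‖ ≤ B) :
    ENNReal.ofReal |∫ x, F.V (x, t) * (fderiv ℝ g x (F.n (x, t)) + g x * F.H (x, t)) ∂F.mu t| ≤
      ENNReal.ofReal (B * η) * ENNReal.ofReal (Λ * R ^ 2) + ENNReal.ofReal (B * (η⁻¹ + 1)) *
        ∫⁻ x, ENNReal.ofReal ((ball (0 : E) R ×ˢ (univ : Set ℝ)).indicator
          (fun p => F.H p ^ 2) (x, t)) ∂F.mu t := by
  rw [← Real.norm_eq_abs, ofReal_norm_eq_enorm]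
  refine (enorm_integral_le_lintegral_enorm _).trans ?_
  rw [← lintegral_const_mul' _ _ ENNReal.ofReal_ne_top]
  refine le_trans (lintegral_mono_ae (g := fun x => (ball (0 : E) R).indicator
    (fun _ => ENNReal.ofReal (B * η)) x + ENNReal.ofReal (B * (η⁻¹ + 1)) *
      ENNReal.ofReal ((ball (0 : E) R ×ˢ (univ : Set ℝ)).indicator
          (fun p => F.H p ^ 2) (x, t))) ?_) ?_
  · filter_upwards [Hu.ae_sl hF.1 t] with x hx
    by_cases hb : x ∈ ball (0 : E) R
    · rw [indicator_of_mem hb, indicator_of_mem (by exact ⟨hb, trivial⟩),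
        ← ENNReal.ofReal_mul (by positivity), ← ENNReal.ofReal_add (by positivity) (by positivity),
        ← ofReal_norm_eq_enorm, hF.2 _ hx]
      refine ENNReal.ofReal_le_ofReal ?_
      have a1 : |fderiv ℝ g x (F.n (x, t))| ≤ B := by
        have := (fderiv ℝ g x).le_opNorm (F.n (x, t))
        rw [Tr.n_unit hF.1 hx, mul_one] at this
        exact this.trans (h1 x).2
      set H := F.H (x, t)
      have a2 : |fderiv ℝ g x (F.n (x, t)) + g x * H| ≤ B + B * |H| := by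
        refine (abs_add_le _ _).trans (add_le_add a1 ?_)
        rw [abs_mul]; gcongr; exact (h1 x).1
      have a3 : |H| ≤ η + η⁻¹ * H ^ 2 := by
        rw [← sq_abs H]
        have : η⁻¹ * (η * |H|) ≤ η⁻¹ * (η * η + |H| ^ 2) := by
          gcongr; nlinarith [sq_nonneg (|H| - η), abs_nonneg H]
        rwa [mul_add, ← mul_assoc, ← mul_assoc, inv_mul_cancel₀ hη.ne', one_mul, one_mul] at this
      rw [Real.norm_eq_abs, abs_mul, abs_neg]
      have a4 := mul_le_mul_of_nonneg_left a2 (abs_nonneg H)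
      have a5 := mul_le_mul_of_nonneg_left a3 hB
      have a6 : |H| * |H| = H ^ 2 := by rw [← sq, sq_abs]
      nlinarith
    · rw [(h0 x hb).1, (h0 x hb).2]; simp
  · rw [lintegral_add_left (measurable_const.indicator measurableSet_ball),
      lintegral_indicator measurableSet_ball, setLIntegral_const]
    gcongr
    exact hA t 0 R hR

variable {α : Type} {l : Filter α} {Fk : α → Mv} {a b : α → ℝ} {Λ : ℝ}

lemma tm (h1 : ∀ᶠ k in l, Fl (Fk k) (Ioo (a k) (b k)) Λ ∧ 1 ≤ b k) (ha : Tendsto a l atBot)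
    (h : H2Van l Fk) (hg : ContDiff ℝ 1 g) (hc : HasCompactSupport g) {t₁ t₂ ε : ℝ} (h2 : t₂ < 0)
    (hε : 0 < ε) : ∀ᶠ k in l, ∀ t ∈ Icc t₁ t₂, ∀ t' ∈ Icc t₁ t₂,
      |∫ x, g x ∂(Fk k).mu t' - ∫ x, g x ∂(Fk k).mu t| ≤ ε := by
  obtain ⟨R, hR, r1⟩ := hc.isCompact.isBounded.subset_ball_lt 0 0
  obtain ⟨B₁, b1⟩ := hg.continuous.bounded_above_of_compact_support hc
  obtain ⟨B₂, b2⟩ := (hg.continuous_fderiv one_ne_zero).bounded_above_of_compact_support
    (hc.fderiv ℝ)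
  set B := max B₁ B₂
  have hB : 0 ≤ B := ((norm_nonneg _).trans (b1 0)).trans (le_max_left _ _)
  have k1 : ∀ x, |g x| ≤ B ∧ ‖fderiv ℝ g x‖ ≤ B := fun x =>
    ⟨(b1 x).trans (le_max_left _ _), (b2 x).trans (le_max_right _ _)⟩
  have k0 : ∀ x ∉ ball (0 : E) R, g x = 0 ∧ fderiv ℝ g x = 0 := fun x hx =>
    ⟨image_eq_zero_of_notMem_tsupport fun h => hx (r1 h),
      Function.notMem_support.1 fun h => hx (r1 (support_fderiv_subset ℝ h))⟩
  set N := B * (|Λ| * R ^ 2) * |t₂ - t₁| with hN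
  have N0 : 0 ≤ N := by positivity
  set η := ε / 2 / (N + 1) with hη
  have η0 : 0 < η := by positivity
  have t0 : Tendsto (fun k => ENNReal.ofReal (B * (η⁻¹ + 1)) * (Fk k).stI
      ((ball (0 : E) R ×ˢ (univ : Set ℝ)).indicator fun p => (Fk k).H p ^ 2) t₁ t₂) l (𝓝 0) := by
    simpa using ENNReal.Tendsto.const_mul (h R t₁ t₂ h2) (Or.inr ENNReal.ofReal_ne_top)
  filter_upwards [h1, ha.eventually (eventually_lt_atBot (t₁ - 1)),
    t0.eventually (gt_mem_nhds (ENNReal.ofReal_pos.2 (half_pos hε)))] with k ⟨f1, f2⟩ f3 f4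
  have key : ∀ t ∈ Icc t₁ t₂, ∀ t' ∈ Icc t₁ t₂, t ≤ t' →
      |∫ x, g x ∂(Fk k).mu t' - ∫ x, g x ∂(Fk k).mu t| ≤ ε := fun t ht t' ht' tt => by
    have hK := Gau.cpt f1 (isCompact_closedBall (0 : E) R) (a := t₁ - 1) (b := 0)
      (fun s hs => ⟨f3.trans_le hs.1, by linarith [hs.2]⟩)
    have hD := fun s (hs : s ∈ Icc t t') => hasD f1.mcf.1 hg (K := closedBall 0 R)
      (fun x hx => (k0 x fun h => hx (ball_subset_closedBall h)).1) hK
      (t := s) ⟨by linarith [hs.1, ht.1], by linarith [hs.2, ht'.2]⟩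
    have e1 := ftc_le tt fun s hs => (hD s hs).differentiableAt
    rw [← ENNReal.ofReal_le_ofReal_iff hε.le]
    refine e1.trans ((setLIntegral_mono' measurableSet_Ioo fun s hs =>
      (congrArg (fun z => ENNReal.ofReal |z|) (hD s (Ioo_subset_Icc_self hs)).deriv).trans_le
        (der_le f1.mcf f1.ar hR hB η0 k0 k1)).trans ?_)
    refine (lintegral_mono_set (Ioo_subset_Ioo ht.1 ht'.2)).trans ?_
    rw [lintegral_add_left measurable_const, setLIntegral_const,
      lintegral_const_mul' _ _ ENNReal.ofReal_ne_top, Real.volume_Ioo, ← add_halves ε,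
      ENNReal.ofReal_add (half_pos hε).le (half_pos hε).le]
    refine add_le_add ?_ f4.le
    refine le_trans (mul_le_mul' (mul_le_mul' le_rfl (ENNReal.ofReal_le_ofReal
      (mul_le_mul_of_nonneg_right (le_abs_self Λ) (sq_nonneg R))))
      (ENNReal.ofReal_le_ofReal (le_abs_self _))) ?_
    rw [← ENNReal.ofReal_mul (by positivity), ← ENNReal.ofReal_mul (by positivity)]
    refine ENNReal.ofReal_le_ofReal ?_
    have : η * (N + 1) = ε / 2 := by rw [hη]; field_simp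
    nlinarith
  intro t ht t' ht'
  rcases le_total t t' with tt | tt
  · exact key t ht t' ht' tt
  · rw [abs_sub_comm]; exact key t' ht' t ht tt

/-- Gaussian areas are almost independent of time -/
lemma tm_fs (h1 : ∀ᶠ k in l, Fl (Fk k) (Ioo (a k) (b k)) Λ ∧ 1 ≤ b k) (ha : Tendsto a l atBot)
    (h : H2Van l Fk) (y : E) {s t₁ t₂ ε : ℝ} (hs : 0 < s) (h2 : t₂ < 0) (hε : 0 < ε) :
    ∀ᶠ k in l, ∀ t ∈ Icc t₁ t₂, ∀ t' ∈ Icc t₁ t₂, (Fk k).Fs t' y s ≤ (Fk k).Fs t y s + ε := by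
  obtain ⟨R, hR, r1⟩ := exists_R (Gau.C0 * max Λ 0) (by positivity : 0 < ε / 3)
  let χ : ContDiffBump y := ⟨R * √s + 1, R * √s + 2, by positivity, by linarith⟩
  have c1 : ContDiff ℝ 1 (gau y s) := by
    unfold gau
    exact contDiff_const.mul (Real.contDiff_exp.comp
      (((contDiff_id.sub contDiff_const).norm_sq ℝ).neg.div_const _))
  have e := tm h1 ha h (g := fun x => χ x * gau y s x) (χ.contDiff.mul c1)
    χ.hasCompactSupport.mul_right h2 (t₁ := t₁) (by positivity : 0 < ε / 3)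
  filter_upwards [h1, e] with k ⟨f1, _⟩ f2 t ht t' ht'
  have tl := fun t => tail_gen (le_max_right Λ 0) (Gau.rat_of_AR f1.ar t) (y := y) hs hR one_pos ∅
    χ.continuous χ.nonneg' (fun _ => χ.le_one) fun x hx _ => χ.one_of_mem_closedBall
      (closedBall_subset_closedBall (by simp [χ]) (ball_subset_closedBall hx))
  have a1 := abs_le.1 (tl t)
  have a2 := abs_le.1 (tl t')
  have a3 := abs_le.1 (f2 t ht t' ht')
  simp only [Finset.card_empty, Nat.cast_zero, zero_mul, add_zero] at a1 a2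
  unfold Mv.Fs
  linarith [a1.1, a2.2, a3.2]

end Crest.Agent.N250.SL

end
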